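import Vale.Agent.P181.H382.Defs
import Vale.Agent.P181.BAL.Defs
import Vale.Agent.P181.TL.H797.CoreN
import Vale.Agent.P181.GK.H809.Fil
import Vale.Agent.P181.GK.H435.Pad
import Vale.Agent.P181.H777.Mono

set_option autoImplicit false

/-! P181, line LL, block L6: the core from `UpB`, `BalB`, `LowM`, `Balance`. -/

namespace Vale.Agent.P181.H382.H435

open Vale.Agent.P181.T4 (HW)
open Vale.Agent.P181.H280 (plethMult)
open Vale.Agent.P181.TL (KK dn2 UpB BalB)
open Vale.Agent.P181.TL.H797 (bal bal_le sum_bal)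
open Vale.Agent.P181.GK (wt2)

lemma sum_wj {k : ℕ} (E j : ℕ) (tau : Fin (k + 1) → ℕ) :
    ∑ i, wj E j tau i = E - (j + ∑ i, tau i) + (j + ∑ i, tau i) := by
  rw [Fin.sum_univ_succ, Fin.sum_univ_succ]
  rfl

/-- Adding two rows. -/
lemma fill_two {a0 : ℕ} (hpos : ∀ a B x y : ℕ, a0 ≤ a → 9 * a ≤ y → y ≤ x → x + y = a * B →
      Vale.Agent.P181.FR.Pos B a 2 ![x, y])
    {a e B k j : ℕ} (tau : Fin (k + 1) → ℕ) (lam : Fin (k + 3) → ℕ) (hae : a0 + e ≤ a)
    (hE : j + ∑ i, tau i ≤ e * B) (h1 : j + 9 * a ≤ lam 1)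
    (h0 : lam 1 + (e * B - (j + ∑ i, tau i)) ≤ lam 0 + j)
    (hs : lam 0 + (lam 1 + ∑ i, tau i) = a * B)
    (htail : (fun i : Fin (k + 1) => lam i.succ.succ) = tau) :
    plethMult B e (k + 3) (wj (e * B) j tau) ≤ plethMult B a (k + 3) lam := by
  have hea : a - e + e = a := by omega
  set E := e * B - (j + ∑ i, tau i) with hEd
  have hsum : lam 0 - E + (lam 1 - j) = (a - e) * B := by
    have h2 : (a - e) * B + e * B = a * B := by rw [← Nat.add_mul, hea]
    omega
  have p := hpos (a - e) B (lam 0 - E) (lam 1 - j) (by omega) (by omega) (by omega) hsum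
  have q := Vale.Agent.P181.GK.H435.padPos B (a - e) (k + 1) _ p
  have r := Vale.Agent.P181.FR.plethMult_pt (c := e) (lam := wj (e * B) j tau) q
  rw [hea] at r
  refine r.trans (le_of_eq ?_)
  congr 1
  funext i
  refine Fin.cases ?_ (fun i => ?_) i
  · show lam 0 - E + (e * B - (j + ∑ i, tau i)) = lam 0
    omega
  · refine Fin.cases ?_ (fun i => ?_) i
    · show lam 1 - j + j = lam 1
      omega
    · show 0 + tau i = lam i.succ.succ
      rw [← htail, Nat.zero_add]

/-- **(L6)** -/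
theorem coreN (hU : UpB) (hB : BalB) (hLow : LowM) (hBal : BAL.Balance) : CoreN := by
  obtain ⟨a0, hpos⟩ := Vale.Agent.P181.GK.H809.pos_two
  refine ⟨a0, ?_⟩
  intro a b k e n m X h R K lam h10 hsum hae ha hm hX hh han hb hK hXn hF hR he hL hgr
  have ha0 : 0 < a := by omega
  set t := dn2 lam with htdef
  set tau : Fin (k + 1) → ℕ := fun i => lam i.succ.succ with htau
  have hsumtau : ∑ i, tau i = t := rfl
  have hs2 : ∀ f : Fin (k + 3) → ℕ, ∑ i, f i = f 0 + (f 1 + dn2 f) := by
    intro f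
    rw [Fin.sum_univ_succ, Fin.sum_univ_succ]
    rfl
  have htot : lam 0 + (lam 1 + t) = a * b := by rw [← hsum, hs2]
  have hK5 : K * (5 * a - 6) = K * (4 * a + 6) + K * (a - 12) := by
    rw [← Nat.mul_add]
    congr 1
    omega
  have hK9 : K * (4 * a + 6) + K * (5 * a - 6) = a * (9 * K) := by
    rw [← Nat.mul_add, show 4 * a + 6 + (5 * a - 6) = 9 * a by omega]
    ring
  set b' := n + 2 * h with hb'
  have hab : a * b = a * b' + a * (9 * K) := by rw [← hb]; ring
  have heb : e * b' ≤ e * b := Nat.mul_le_mul_left _ (by omega)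
  set lam' : Fin (k + 3) → ℕ := fun i =>
    if (i : ℕ) = 0 then lam i - K * (4 * a + 6) else
      if (i : ℕ) = 1 then lam i - K * (5 * a - 6) else lam i with hlam'
  have e0 : lam' 0 = lam 0 - K * (4 * a + 6) := by
    simp [hlam']
  have e1 : lam' 1 = lam 1 - K * (5 * a - 6) := by
    simp [hlam']
  have etail : (fun i : Fin (k + 1) => lam' i.succ.succ) = tau := by
    funext i
    simp only [hlam', Fin.val_succ, htau]
    rw [if_neg (by omega), if_neg (by omega)]
  have hK1 : K * (5 * a - 6) ≤ lam 1 := by omega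
  have hK0 : K * (4 * a + 6) ≤ lam 0 := by omega
  -- the lower bound
  obtain ⟨i, hi, hlow⟩ := hLow k a e n m X h R tau (bal a t) ha0 hm hX hh han
    (fun i => by rw [hsumtau]; exact Nat.le_add_right _ _) (by rw [hsumtau]; exact sum_bal ha0 t)
    (by rw [hsumtau]; exact hXn) (by rw [hsumtau]; exact hF) hR (by rw [hsumtau]; exact he)
  have hi2 : i ≤ n * (n / m) + 2 * e * h + lam 2 := hi
  set F := Module.finrank ℂ (KK (k + 1) (Fin a) (bal a t) tau) with hFdef
  have u1 := hU a b (k + 1) lam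
  have u2 := hB (k + 1) a tau (bal a t) ha0 (bal_le a _) (sum_bal ha0 _)
  have u : plethMult a b (k + 3) lam ≤ ((a + b).choose a * (a + t - 1).choose t) * F := by
    refine u1.trans ?_
    rw [Nat.mul_assoc]
    exact Nat.mul_le_mul_left _ u2
  have hXpos : 0 < X ^ n := Nat.pow_pos (by omega)
  have hP : plethMult b' e (k + 3) (wj (e * b') i tau) ≤ plethMult b' a (k + 3) lam' := by
    by_cases hE : i + ∑ i, tau i ≤ e * b'
    · refine fill_two hpos tau lam' hae hE ?_ ?_ ?_ etail
      · rw [e1]; omega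
      · rw [e0, e1]; omega
      · rw [e0, e1, hsumtau]; omega
    · have hz : plethMult b' e (k + 3) (wj (e * b') i tau) = 0 := by
        apply Vale.Agent.P181.H777.plethMult_eq_zero_of_sum
        rw [sum_wj, Nat.mul_comm b' e]
        omega
      rw [hz]
      exact Nat.zero_le _
  have e7 := hBal a b' (k + 1) K lam' lam (by omega) (by rw [e0, e1]; omega)
    (by rw [e0]; omega) (by rw [e1]; omega) (fun i => (congrFun etail i).symm)
  rw [hb] at e7
  have n1 : n * X + 1 ≤ a * b + 1 := by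
    have h2 : X * n ≤ (m * (X + 1) + X) * n := Nat.mul_le_mul_right _ (Nat.le_add_left _ _)
    rw [Nat.mul_comm n X]
    omega
  have n2 : n * (n / m) + 2 * e * h + tau 0 + 1 ≤ a * b + 1 := by
    have h2 : tau 0 = lam 2 := rfl
    omega
  have n3 : K * (a - 12) + 1 ≤ a * b + 1 := by omega
  refine Nat.le_of_mul_le_mul_left ?_ hXpos
  set D := (a + b).choose a * (a + t - 1).choose t with hD
  calc X ^ n * plethMult a b (k + 3) lam
      ≤ X ^ n * (D * F) := Nat.mul_le_mul_left _ u
    _ = D * (X ^ n * F) := by ring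
    _ ≤ D * ((n * X + 1) * ((n * (n / m) + 2 * e * h + tau 0 + 1) *
        plethMult b' e (k + 3) (wj (e * b') i tau))) := Nat.mul_le_mul_left _ hlow
    _ ≤ D * ((a * b + 1) * ((a * b + 1) * ((a * b + 1) * plethMult b a (k + 3) lam))) :=
        Nat.mul_le_mul_left _ (Nat.mul_le_mul n1 (Nat.mul_le_mul n2
          (hP.trans (e7.trans (Nat.mul_le_mul_right _ n3)))))
    _ = (D * (a * b + 1) ^ 3) * plethMult b a (k + 3) lam := by ring
    _ ≤ X ^ n * plethMult b a (k + 3) lam := Nat.mul_le_mul_right _ hgr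

end Vale.Agent.P181.H382.H435
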