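import Vale.Agent.P181.H382.Defs
import Vale.Agent.P181.NR.H761.Est

set_option autoImplicit false

/-! P181, line LL: `TwoLongP` (all `b > a`, parametric gain) from `CoreN`. -/

namespace Vale.Agent.P181.H382.H435

open Vale.Agent.P181.H280 (plethMult)
open Vale.Agent.P181.TL (KK dn2)

lemma num8 {T a t l1 l2 n D h' K' : ℕ} (hT : 1000 ≤ T) (ha : 0 < a) (hnb : n ≤ T * a)
    (hnm : n / T ^ 5 ≤ D) (hD1 : T ^ 4 * D ≤ a) (hup : T ^ 6 * t ≤ a ^ 2) (hh1 : D * h' ≤ t)
    (hl2 : l2 ≤ t) (H2a : T ^ 2 * K' ≤ 2 * a) (hTa : 1000 * T ≤ a) (hl : a ^ 2 ≤ T * l1) :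
    n * (n / T ^ 5) + 2 * (T * D) * (h' + 1) + l2 + (K' + 1) * (5 * a - 6) + 9 * a ≤ l1 := by
  have hT0 : 0 < T := by omega
  have hpw : ∀ i j : ℕ, i ≤ j → T ^ i ≤ T ^ j := fun i j h => Nat.pow_le_pow_right hT0 h
  refine Nat.le_of_mul_le_mul_left (c := T) ?_ hT0
  refine le_trans ?_ hl
  have c1 : T * (n * (n / T ^ 5)) * 1000 ≤ a ^ 2 := by
    calc T * (n * (n / T ^ 5)) * 1000 ≤ T * ((T * a) * D) * T :=
          Nat.mul_le_mul (Nat.mul_le_mul_left _ (Nat.mul_le_mul (hnb) hnm)) hT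
      _ = T ^ 3 * D * a := by ring
      _ ≤ T ^ 4 * D * a :=
          Nat.mul_le_mul_right _ (Nat.mul_le_mul_right _ (hpw _ _ (by omega)))
      _ ≤ a * a := Nat.mul_le_mul_right _ hD1
      _ = a ^ 2 := by ring
  have t1 : 1000 * (T ^ 2 * t) ≤ a ^ 2 := by
    calc 1000 * (T ^ 2 * t) ≤ T * (T ^ 2 * t) := Nat.mul_le_mul_right _ hT
      _ = T ^ 3 * t := by ring
      _ ≤ T ^ 6 * t := Nat.mul_le_mul_right _ (hpw _ _ (by omega))
      _ ≤ a ^ 2 := hup
  have t2 : T * t ≤ T ^ 2 * t :=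
    Nat.mul_le_mul_right _ (by simpa using hpw 1 2 (by omega))
  have d1 : 1000 * (T ^ 2 * D) ≤ a ^ 2 := by
    calc 1000 * (T ^ 2 * D) ≤ T * (T ^ 2 * D) := Nat.mul_le_mul_right _ hT
      _ = T ^ 3 * D := by ring
      _ ≤ T ^ 4 * D := Nat.mul_le_mul_right _ (hpw _ _ (by omega))
      _ ≤ a := hD1
      _ ≤ a ^ 2 := by nlinarith
  have c2 : T * (2 * (T * D) * (h' + 1)) ≤ 2 * (T ^ 2 * t) + 2 * (T ^ 2 * D) := by
    calc T * (2 * (T * D) * (h' + 1)) = 2 * (T ^ 2 * (D * h')) + 2 * (T ^ 2 * D) := by ring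
      _ ≤ 2 * (T ^ 2 * t) + 2 * (T ^ 2 * D) :=
          Nat.add_le_add_right (Nat.mul_le_mul_left _ (Nat.mul_le_mul_left _ hh1)) _
  have c3 : T * l2 ≤ T * t := Nat.mul_le_mul_left _ hl2
  have c4 : 100 * (T * (5 * a * K')) ≤ a ^ 2 := by
    calc 100 * (T * (5 * a * K')) = 500 * a * (T * K') := by ring
      _ = (500 * T * K') * a := by ring
      _ ≤ a * a := by
          refine Nat.mul_le_mul_right _ ?_
          have h1 : 1000 * (T * K') ≤ 2 * a := by
            calc 1000 * (T * K') ≤ T * (T * K') := Nat.mul_le_mul_right _ hT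
              _ = T ^ 2 * K' := by ring
              _ ≤ 2 * a := H2a
          have h2 : 500 * T * K' = 500 * (T * K') := by ring
          omega
      _ = a ^ 2 := by ring
  have c5 : T * ((K' + 1) * (5 * a - 6)) ≤ T * (5 * a * K') + 5 * (T * a) := by
    calc T * ((K' + 1) * (5 * a - 6)) ≤ T * ((K' + 1) * (5 * a)) :=
          Nat.mul_le_mul_left _ (Nat.mul_le_mul_left _ (Nat.sub_le _ _))
      _ = T * (5 * a * K') + 5 * (T * a) := by ring
  have c6 : 1000 * (T * a) ≤ a ^ 2 := by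
    calc 1000 * (T * a) = (1000 * T) * a := by ring
      _ ≤ a * a := Nat.mul_le_mul_right _ hTa
      _ = a ^ 2 := by ring
  have e1 : T * (n * (n / T ^ 5) + 2 * (T * D) * (h' + 1) + l2 + (K' + 1) * (5 * a - 6) +
      9 * a) = T * (n * (n / T ^ 5)) + T * (2 * (T * D) * (h' + 1)) + T * l2 +
      T * ((K' + 1) * (5 * a - 6)) + 9 * (T * a) := by ring
  rw [e1]
  omega

/-- The numbers. -/
lemma numT {T a b t l1 l2 : ℕ} (hT : 1000 ≤ T) (hab : a < b) (hbT : b ≤ T * a)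
    (hG : b ≤ T * (b - a)) (hl : a ^ 2 ≤ T * l1) (hup : T ^ 6 * t ≤ a ^ 2)
    (hlo : T ^ 24 * a ≤ t) (hl2 : l2 ≤ t) :
    ∃ e n m X h R K : ℕ, T + e ≤ a ∧ 12 < a ∧ 1 ≤ m ∧ 1 ≤ X ∧ 1 ≤ h ∧ a ≤ n ∧
      n + 2 * h + 9 * K = b ∧ e * b ≤ K * (a - 12) ∧ (m * (X + 1) + X) * n ≤ t ∧
      t / n + m * (X + 1) + 1 ≤ t / a ∧ l2 ≤ h * R ∧ t / a + n / m + 2 + R ≤ e ∧
      n * (n / m) + 2 * e * h + l2 + K * (5 * a - 6) + 9 * a ≤ l1 ∧
      a + b ≤ 2 * n ∧ t ≤ a * T ^ 8 * X := by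
  have ha : 0 < a := by
    rcases Nat.eq_zero_or_pos a with h | h
    · subst h; omega
    · exact h
  have hT0 : 0 < T := by omega
  have ha30 : T ^ 30 ≤ a := by
    have h1 : T ^ 30 * a ≤ a * a := by
      calc T ^ 30 * a = T ^ 6 * (T ^ 24 * a) := by ring
        _ ≤ T ^ 6 * t := Nat.mul_le_mul_left _ hlo
        _ ≤ a ^ 2 := hup
        _ = a * a := by ring
    exact Nat.le_of_mul_le_mul_right h1 ha
  have hpw : ∀ i j : ℕ, i ≤ j → T ^ i ≤ T ^ j := fun i j h => Nat.pow_le_pow_right hT0 h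
  have hT5 : T * T ^ 4 ≤ a := by
    calc T * T ^ 4 = T ^ 5 := by ring
      _ ≤ T ^ 30 := hpw _ _ (by omega)
      _ ≤ a := ha30
  have hTa : 1000 * T ≤ a := by
    calc 1000 * T ≤ T * T := Nat.mul_le_mul_right _ hT
      _ = T ^ 2 := by ring
      _ ≤ T ^ 30 := hpw _ _ (by omega)
      _ ≤ a := ha30
  set s := b - a with hs
  have hsb : b = a + s := by omega
  have haTs : a ≤ T * s := by omega
  have hs1 : 1000 ≤ s := by
    have h1 : T * 1000 ≤ T * s := by
      rw [Nat.mul_comm T 1000]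
      exact hTa.trans haTs
    exact Nat.le_of_mul_le_mul_left h1 hT0
  set D := a / T ^ 4 with hD
  have hT4 : 0 < T ^ 4 := by positivity
  have hD1 : T ^ 4 * D ≤ a := Nat.mul_div_le _ _
  have hD3 : T ≤ D := (Nat.le_div_iff_mul_le hT4).2 hT5
  have hD0 : 0 < D := by omega
  have hD4 : a ≤ T ^ 4 * (2 * D) := by
    have h1 : a < T ^ 4 * (D + 1) := Nat.lt_mul_div_succ a hT4
    have h2 : T ^ 4 * (D + 1) ≤ T ^ 4 * (2 * D) := Nat.mul_le_mul_left _ (by omega)
    omega
  set h' := t / D with hh'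
  have hh1 : D * h' ≤ t := Nat.mul_div_le _ _
  have hh2 : t < D * (h' + 1) := Nat.lt_mul_div_succ t hD0
  have H1 : T * h' ≤ 2 * s := by
    have h1 : (T ^ 4 * D) * (T ^ 2 * h') ≤ (T ^ 4 * D) * (2 * a) := by
      calc (T ^ 4 * D) * (T ^ 2 * h') = T ^ 6 * (D * h') := by ring
        _ ≤ T ^ 6 * t := Nat.mul_le_mul_left _ hh1
        _ ≤ a ^ 2 := hup
        _ = a * a := by ring
        _ ≤ T ^ 4 * (2 * D) * a := Nat.mul_le_mul_right _ hD4
        _ = (T ^ 4 * D) * (2 * a) := by ring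
    have h2 : T ^ 2 * h' ≤ 2 * a := Nat.le_of_mul_le_mul_left h1 (by positivity)
    have h3 : T * (T * h') ≤ T * (2 * s) := by
      calc T * (T * h') = T ^ 2 * h' := by ring
        _ ≤ 2 * a := h2
        _ ≤ 2 * (T * s) := Nat.mul_le_mul_left _ haTs
        _ = T * (2 * s) := by ring
    exact Nat.le_of_mul_le_mul_left h3 hT0
  set K' := T * D * b / (a - 12) with hK'
  have hK1 : (a - 12) * K' ≤ T * D * b := Nat.mul_div_le _ _
  have hK2 : T * D * b < (a - 12) * (K' + 1) := Nat.lt_mul_div_succ _ (by omega)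
  have H2 : T ^ 3 * K' ≤ 2 * b := by
    have h1 : a * K' ≤ 2 * ((a - 12) * K') := by
      rw [← Nat.mul_assoc]
      exact Nat.mul_le_mul_right _ (by omega)
    have h2 : a * (T ^ 3 * K') ≤ a * (2 * b) := by
      calc a * (T ^ 3 * K') = T ^ 3 * (a * K') := by ring
        _ ≤ T ^ 3 * (2 * (T * D * b)) := Nat.mul_le_mul_left _ (h1.trans
            (Nat.mul_le_mul_left _ hK1))
        _ = (T ^ 4 * D) * (2 * b) := by ring
        _ ≤ a * (2 * b) := Nat.mul_le_mul_right _ hD1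
    exact Nat.le_of_mul_le_mul_left h2 ha
  have H2s : T ^ 2 * K' ≤ 2 * s := by
    have h3 : T * (T ^ 2 * K') ≤ T * (2 * s) := by
      calc T * (T ^ 2 * K') = T ^ 3 * K' := by ring
        _ ≤ 2 * b := H2
        _ ≤ 2 * (T * s) := Nat.mul_le_mul_left _ hG
        _ = T * (2 * s) := by ring
    exact Nat.le_of_mul_le_mul_left h3 hT0
  have H2a : T ^ 2 * K' ≤ 2 * a := by
    have h3 : T * (T ^ 2 * K') ≤ T * (2 * a) := by
      calc T * (T ^ 2 * K') = T ^ 3 * K' := by ring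
        _ ≤ 2 * b := H2
        _ ≤ 2 * (T * a) := Nat.mul_le_mul_left _ hbT
        _ = T * (2 * a) := by ring
    exact Nat.le_of_mul_le_mul_left h3 hT0
  have B1 : 1000 * h' ≤ 2 * s := (Nat.mul_le_mul_right _ hT).trans H1
  have hT2 : 1000000 ≤ T ^ 2 := by nlinarith
  have B2 : 1000000 * K' ≤ 2 * s := (Nat.mul_le_mul_right _ hT2).trans H2s
  set q := t / a with hq
  have hq1 : a * q ≤ t := Nat.mul_div_le _ _
  have hq2 : t < a * (q + 1) := Nat.lt_mul_div_succ t ha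
  have hq24 : T ^ 24 ≤ q := (Nat.le_div_iff_mul_le ha).2 hlo
  have hT7 : 0 < T ^ 7 := by positivity
  set X := q / T ^ 7 with hX
  have hX1 : T ^ 7 * X ≤ q := Nat.mul_div_le _ _
  have hX2 : q < T ^ 7 * (X + 1) := Nat.lt_mul_div_succ q hT7
  have hX3 : 1 ≤ X := by
    refine (Nat.le_div_iff_mul_le hT7).2 ?_
    rw [Nat.one_mul]
    exact (hpw 7 24 (by omega)).trans hq24
  obtain ⟨n, hn⟩ : ∃ n, n + 2 * (h' + 1) + 9 * (K' + 1) = b :=
    ⟨b - 2 * (h' + 1) - 9 * (K' + 1), by omega⟩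
  have hn2 : a + b ≤ 2 * n := by omega
  have hnb : n ≤ b := by omega
  have hn0 : 0 < n := by omega
  have hnm : n / T ^ 5 ≤ D := by
    have h1 : n / T ^ 5 ≤ (T * a) / (T * T ^ 4) := by
      rw [show T * T ^ 4 = T ^ 5 by ring]
      exact Nat.div_le_div_right (hnb.trans hbT)
    rwa [Nat.mul_div_mul_left _ _ hT0] at h1
  -- the powers against q
  have P6 : 2 * T ^ 6 + 2 * T ≤ q / 4 := by
    refine (Nat.le_div_iff_mul_le (by norm_num)).2 ?_
    have h1 : T ≤ T ^ 6 := by simpa using hpw 1 6 (by omega)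
    calc (2 * T ^ 6 + 2 * T) * 4 ≤ 16 * T ^ 6 := by omega
      _ ≤ T * T ^ 6 := Nat.mul_le_mul_right _ (by omega)
      _ = T ^ 7 := by ring
      _ ≤ T ^ 24 := hpw _ _ (by omega)
      _ ≤ q := hq24
  have X6 : 1000 * (T ^ 6 * X) ≤ q := by
    calc 1000 * (T ^ 6 * X) ≤ T * (T ^ 6 * X) := Nat.mul_le_mul_right _ hT
      _ = T ^ 7 * X := by ring
      _ ≤ q := hX1
  have mono_s : ∀ x y : ℕ, x ≤ y → x * s ≤ y * s := fun x y h => Nat.mul_le_mul_right _ h
  refine ⟨T * D, n, T ^ 5, X, h' + 1, D, K' + 1, ?_, by omega, Nat.one_le_pow _ _ hT0, hX3,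
    by omega, by omega, hn, ?_, ?_, ?_, ?_, ?_, ?_, hn2, ?_⟩
  · -- T + e ≤ a
    have h1 : 2 * (T * D) ≤ a := by
      calc 2 * (T * D) ≤ T ^ 3 * (T * D) := by
            refine Nat.mul_le_mul_right _ ?_
            have : T ≤ T ^ 3 := by simpa using hpw 1 3 (by omega)
            omega
        _ = T ^ 4 * D := by ring
        _ ≤ a := hD1
    omega
  · -- e b ≤ K (a - 12)
    rw [Nat.mul_comm (K' + 1)]
    exact hK2.le
  · -- (iv)
    have h1 : (T ^ 5 * (X + 1) + X) * n ≤ (2 * (T ^ 6 * X) + T ^ 6) * a := by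
      calc (T ^ 5 * (X + 1) + X) * n ≤ (T ^ 5 * (X + 1) + T ^ 5 * X) * (T * a) := by
            refine Nat.mul_le_mul (Nat.add_le_add_left ?_ _) (hnb.trans hbT)
            exact Nat.le_mul_of_pos_left _ (by positivity)
        _ = (2 * (T ^ 6 * X) + T ^ 6) * a := by ring
    have h2 : 2 * (T ^ 6 * X) + T ^ 6 ≤ q := by omega
    calc _ ≤ (2 * (T ^ 6 * X) + T ^ 6) * a := h1
      _ ≤ q * a := Nat.mul_le_mul_right _ h2
      _ = a * q := Nat.mul_comm _ _
      _ ≤ t := hq1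
  · -- (v)
    have h1 : t + T ^ 5 * (X + 1) * n < q * n := by
      have h2 : 2 * (T ^ 5 * (X + 1) * n) + 2 * a ≤ q * s := by
        calc 2 * (T ^ 5 * (X + 1) * n) + 2 * a
            ≤ 2 * (T ^ 5 * (X + 1) * (T * s)) + 2 * (T * s) :=
              Nat.add_le_add (Nat.mul_le_mul_left _ (Nat.mul_le_mul_left _ (hnb.trans hG)))
                (Nat.mul_le_mul_left _ haTs)
          _ = (2 * (T ^ 6 * X) + (2 * T ^ 6 + 2 * T)) * s := by ring
          _ ≤ q * s := mono_s _ _ (by omega)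
      have h3 : q * (a + b) ≤ q * (2 * n) := Nat.mul_le_mul_left _ hn2
      have h4 : q * (a + b) = 2 * (a * q) + q * s := by rw [hsb]; ring
      have h5 : q * (2 * n) = 2 * (q * n) := by ring
      have h6 : a * (q + 1) = a * q + a := by ring
      omega
    have h2 : t / n < q - T ^ 5 * (X + 1) := by
      rw [Nat.div_lt_iff_lt_mul hn0, Nat.sub_mul]
      omega
    generalize t / n = w at h2 ⊢
    omega
  · -- (vi)
    rw [Nat.mul_comm]
    omega
  · -- (vii)
    have h1 : q ≤ D := by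
      have h2 : (a * T ^ 4) * q ≤ (a * T ^ 4) * (D) := by
        have h3 : T ^ 2 * ((a * T ^ 4) * q) ≤ T ^ 2 * ((a * T ^ 4) * D) := by
          calc T ^ 2 * ((a * T ^ 4) * q) = T ^ 6 * (a * q) := by ring
            _ ≤ T ^ 6 * t := Nat.mul_le_mul_left _ hq1
            _ ≤ a ^ 2 := hup
            _ = a * a := by ring
            _ ≤ a * (T ^ 4 * (2 * D)) := Nat.mul_le_mul_left _ hD4
            _ = 2 * ((a * T ^ 4) * D) := by ring
            _ ≤ T ^ 2 * ((a * T ^ 4) * D) := Nat.mul_le_mul_right _ (by omega)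
        exact Nat.le_of_mul_le_mul_left h3 (by positivity)
      exact Nat.le_of_mul_le_mul_left h2 (by positivity)
    have h4 : 1000 * D ≤ T * D := Nat.mul_le_mul_right _ hT
    omega
  · exact num8 hT ha (hnb.trans hbT) hnm hD1 hup hh1 hl2 H2a hTa hl
  · -- t ≤ a T^8 X
    have h1 : q + 1 ≤ T ^ 7 * (X + 1) := hX2
    calc t ≤ a * (q + 1) := hq2.le
      _ ≤ a * (T ^ 7 * (X + 1)) := Nat.mul_le_mul_left _ h1
      _ ≤ a * (T ^ 7 * (T * X)) := by
          refine Nat.mul_le_mul_left _ (Nat.mul_le_mul_left _ ?_)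
          have : 1000 * X ≤ T * X := Nat.mul_le_mul_right _ hT
          omega
      _ = a * T ^ 8 * X := by ring

/-- The growth, in logarithms. -/
lemma growT {T a b t n X : ℕ} (hT : 1000 ≤ T) (ha : 0 < a) (hab : a < b) (hX : 1 ≤ X)
    (hat : a ≤ t) (hn : a + b ≤ 2 * n) (htX : t ≤ a * T ^ 8 * X)
    (hg : 24 * (b : ℝ) * Real.log T ≤ ((b : ℝ) - a) * Real.log (t / a)) :
    (a + b).choose a * (a + t - 1).choose t * (a * b + 1) ^ 3 ≤ X ^ n := by
  have ha' : (0 : ℝ) < a := by exact_mod_cast ha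
  have hb' : (0 : ℝ) < b := by exact_mod_cast (by omega : 0 < b)
  have hab' : (a : ℝ) < b := by exact_mod_cast hab
  have hT' : (1000 : ℝ) ≤ T := by exact_mod_cast hT
  have hX' : (1 : ℝ) ≤ X := by exact_mod_cast hX
  have hat' : (a : ℝ) ≤ t := by exact_mod_cast hat
  have ht0 : (0 : ℝ) < t := by linarith
  have hn' : (a : ℝ) + b ≤ 2 * n := by exact_mod_cast hn
  have l2 : Real.log 2 < 0.6931471808 := Real.log_two_lt_d9
  have hlT : 2 ≤ Real.log T := by
    rw [Real.le_log_iff_exp_le (by linarith)]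
    have h1 : Real.exp 2 = Real.exp 1 * Real.exp 1 := by rw [← Real.exp_add]; norm_num
    have h2 := Real.exp_one_lt_d9
    have h3 := Real.exp_pos 1
    rw [h1]
    nlinarith
  set Y := Real.log (t / a) with hY
  have hlogX : Y - 8 * Real.log T ≤ Real.log X := by
    have h1 : (t : ℝ) / a ≤ T ^ 8 * X := by
      rw [div_le_iff₀ ha']
      calc (t : ℝ) ≤ ((a * T ^ 8 * X : ℕ) : ℝ) := by exact_mod_cast htX
        _ = T ^ 8 * X * a := by push_cast; ring
    have h2 : Y ≤ Real.log (T ^ 8 * X) := Real.log_le_log (by positivity) h1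
    rw [Real.log_mul (by positivity) (by positivity), Real.log_pow] at h2
    push_cast at h2
    linarith
  have c1 : Real.log ((a + b).choose a : ℕ) ≤ 2 * b * Real.log 2 := by
    have h1 : (((a + b).choose a : ℕ) : ℝ) ≤ (2 : ℝ) ^ (a + b) := by
      exact_mod_cast Nat.choose_le_two_pow (a + b) a
    have h2 : (0 : ℝ) < ((a + b).choose a : ℕ) := by
      exact_mod_cast Nat.choose_pos (Nat.le_add_right _ _)
    have h3 := Real.log_le_log h2 h1
    rw [Real.log_pow] at h3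
    push_cast at h3
    have h4 : ((a : ℝ) + b) * Real.log 2 ≤ 2 * b * Real.log 2 :=
      mul_le_mul_of_nonneg_right (by linarith) (Real.log_nonneg (by norm_num))
    linarith
  have c2 : Real.log ((a + t - 1).choose t : ℕ) ≤ a * (1 + (Real.log 2 + Y)) := by
    have h1 : (((a + t - 1).choose t : ℕ) : ℝ) ≤ ((a + t).choose t : ℕ) := by
      exact_mod_cast Nat.choose_le_choose t (Nat.sub_le _ _)
    have h2 : (0 : ℝ) < ((a + t - 1).choose t : ℕ) := by
      exact_mod_cast Nat.choose_pos (by omega)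
    have h3 := Real.log_le_log h2 h1
    have h4 := Vale.Agent.P181.NR.H761.log_choose_le a t (by omega)
    have h5 : Real.log (1 + t / a) ≤ Real.log 2 + Y := by
      rw [hY, ← Real.log_mul (by norm_num) (by positivity)]
      refine Real.log_le_log (by positivity) ?_
      have : (1 : ℝ) ≤ t / a := by rwa [le_div_iff₀ ha', one_mul]
      linarith
    have h6 : (a : ℝ) * (1 + Real.log (1 + t / a)) ≤ a * (1 + (Real.log 2 + Y)) :=
      mul_le_mul_of_nonneg_left (by linarith) ha'.le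
    linarith
  have c3 : Real.log ((a * b + 1 : ℕ)) ≤ 2 * b * Real.log 2 := by
    have h0 : b + 1 ≤ 2 ^ b := Nat.lt_two_pow_self
    have h1 : a * b + 1 ≤ 2 ^ (2 * b) := by
      calc a * b + 1 ≤ (b + 1) * (b + 1) := by nlinarith
        _ ≤ 2 ^ b * 2 ^ b := Nat.mul_le_mul h0 h0
        _ = 2 ^ (2 * b) := by rw [two_mul, pow_add]
    have h2 : ((a * b + 1 : ℕ) : ℝ) ≤ (2 : ℝ) ^ (2 * b) := by exact_mod_cast h1
    have h3 := Real.log_le_log (by positivity) h2
    rw [Real.log_pow] at h3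
    push_cast at h3 ⊢
    linarith
  have e1 : Real.log (((a + b).choose a * (a + t - 1).choose t * (a * b + 1) ^ 3 : ℕ) : ℝ) ≤
      Real.log ((X ^ n : ℕ) : ℝ) := by
    have p1 : (((a + b).choose a : ℕ) : ℝ) ≠ 0 := by
      exact_mod_cast (Nat.choose_pos (Nat.le_add_right _ _)).ne'
    have p2 : (((a + t - 1).choose t : ℕ) : ℝ) ≠ 0 := by
      exact_mod_cast (Nat.choose_pos (by omega)).ne'
    have p3 : (((a * b + 1 : ℕ) : ℝ)) ≠ 0 := by positivity
    rw [Nat.cast_mul, Nat.cast_mul, Nat.cast_pow, Nat.cast_pow,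
      Real.log_mul (mul_ne_zero p1 p2) (pow_ne_zero _ p3), Real.log_mul p1 p2, Real.log_pow,
      Real.log_pow]
    have hY24 : 24 * Real.log T ≤ Y := by
      have h1 : (b - a : ℝ) * (24 * Real.log T) ≤ (b - a) * Y := by
        refine le_trans ?_ hg
        have : 0 ≤ Real.log T := by linarith
        nlinarith
      exact le_of_mul_le_mul_left h1 (by linarith)
    have h1 : (n : ℝ) * (Y - 8 * Real.log T) ≤ n * Real.log X :=
      mul_le_mul_of_nonneg_left hlogX (Nat.cast_nonneg n)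
    have h2 : ((a : ℝ) + b) / 2 * (Y - 8 * Real.log T) ≤ n * (Y - 8 * Real.log T) :=
      mul_le_mul_of_nonneg_right (by linarith) (by linarith)
    have h3 : (2 : ℝ) * b ≤ b * Real.log T := by nlinarith
    have h4 : (a : ℝ) * Real.log T ≤ b * Real.log T :=
      mul_le_mul_of_nonneg_right hab'.le (by linarith)
    have h5 : (a : ℝ) * (1 + Real.log 2) ≤ b * (1 + Real.log 2) :=
      mul_le_mul_of_nonneg_right hab'.le (by have := Real.log_nonneg (show (1 : ℝ) ≤ 2 by norm_num); linarith)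
    have h6 : (b : ℝ) * Real.log 2 ≤ b * 0.6931471808 := mul_le_mul_of_nonneg_left l2.le hb'.le
    have h7 : (((3 : ℕ) : ℝ)) * Real.log ((a * b + 1 : ℕ)) ≤ 6 * b * Real.log 2 := by
      push_cast at c3 ⊢
      linarith
    have h8 : (a : ℝ) * (1 + (Real.log 2 + Y)) = a * (1 + Real.log 2) + a * Y := by ring
    have h9 : ((a : ℝ) + b) / 2 * (Y - 8 * Real.log T) =
        a * Y + ((b : ℝ) - a) * Y / 2 - 4 * (a * Real.log T) - 4 * (b * Real.log T) := by ring
    linarith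
  have q0 : (0 : ℝ) < ((X ^ n : ℕ) : ℝ) := by
    have : 0 < X ^ n := Nat.pow_pos (by omega)
    exact_mod_cast this
  have q1 : (0 : ℝ) < (((a + b).choose a * (a + t - 1).choose t * (a * b + 1) ^ 3 : ℕ) : ℝ) := by
    have : 0 < (a + b).choose a * (a + t - 1).choose t * (a * b + 1) ^ 3 :=
      Nat.mul_pos (Nat.mul_pos (Nat.choose_pos (Nat.le_add_right _ _))
        (Nat.choose_pos (by omega))) (by positivity)
    exact_mod_cast this
  have e2 := (Real.log_le_log_iff q1 q0).1 e1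
  exact_mod_cast e2

/-- **(L7P)** every `b > a`, parametric gain. -/
def TwoLongP : Prop := ∀ (C₀ : ℝ) (c₀ : ℕ), 0 < C₀ → ∃ (C : ℝ) (c : ℕ), 0 < C ∧
  ∀ (a b k : ℕ) (lam : Fin (k + 3) → ℕ), a < b → lam 1 ≤ lam 0 → ∑ i, lam i = a * b →
    (b : ℝ) ≤ C₀ * (1 + Real.log a) ^ c₀ * a →
    (a : ℝ) ^ 2 ≤ C₀ * (1 + Real.log a) ^ c₀ * lam 1 →
    C * b * Real.log (2 + Real.log a) ≤ ((b : ℝ) - a) * Real.log (dn2 lam / a) →
    C * (1 + Real.log a) ^ c * dn2 lam ≤ (a : ℝ) ^ 2 →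
    plethMult a b (k + 3) lam ≤ plethMult b a (k + 3) lam

theorem twoLongP (hC : CoreN) : TwoLongP := by
  intro C₀ c₀ hC₀
  obtain ⟨a₀, hcore⟩ := hC
  set M : ℝ := a₀ + 1003 + C₀ with hM
  have hM1 : 1 ≤ M := by
    have : (0 : ℝ) ≤ a₀ := Nat.cast_nonneg _
    linarith
  have hl2 : 0 < Real.log 2 := Real.log_pos (by norm_num)
  have hlM : 0 ≤ Real.log M := Real.log_nonneg hM1
  have hB0 : 0 ≤ Real.log M / Real.log 2 + c₀ + 1 := by positivity
  have hM6 : 0 < M ^ 6 := by positivity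
  refine ⟨24 * (Real.log M / Real.log 2 + c₀ + 1) + M ^ 6, 6 * (c₀ + 1), by positivity, ?_⟩
  intro a b k lam hab h10 hsum hb hl1 hg hup
  set t := dn2 lam with ht
  have hb0 : (0 : ℝ) < b := by exact_mod_cast (by omega : 0 < b)
  have ha : 0 < a := by
    rcases Nat.eq_zero_or_pos a with h | h
    · subst h
      exfalso
      simp only [Nat.cast_zero, Real.log_zero, add_zero, div_zero, mul_zero] at hg
      have : 0 < (24 * (Real.log M / Real.log 2 + c₀ + 1) + M ^ 6) * b * Real.log 2 := by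
        positivity
      linarith
    · exact h
  have ha' : (0 : ℝ) < a := by exact_mod_cast ha
  have ha1 : (1 : ℝ) ≤ a := by exact_mod_cast ha
  have hab' : (a : ℝ) < b := by exact_mod_cast hab
  have hla : 0 ≤ Real.log a := Real.log_nonneg ha1
  set l := 1 + Real.log a with hl
  have hl1' : 1 ≤ l := by linarith
  set T := a₀ + 1000 + ⌈C₀ * l ^ c₀⌉₊ + ⌈l⌉₊ with hT
  have hT1 : 1000 ≤ T := by omega
  have hTa0 : a₀ ≤ T := by omega
  have hTC : C₀ * l ^ c₀ ≤ T := by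
    have h1 := Nat.le_ceil (C₀ * l ^ c₀)
    have h2 : ((⌈C₀ * l ^ c₀⌉₊ : ℕ) : ℝ) ≤ T := by exact_mod_cast (by omega)
    linarith
  have hTl : l ≤ T := by
    have h1 := Nat.le_ceil l
    have h2 : ((⌈l⌉₊ : ℕ) : ℝ) ≤ T := by exact_mod_cast (by omega)
    linarith
  have hT1' : (1000 : ℝ) ≤ T := by exact_mod_cast hT1
  have hTM : (T : ℝ) ≤ M * l ^ (c₀ + 1) := by
    have h1 : ((⌈C₀ * l ^ c₀⌉₊ : ℕ) : ℝ) < C₀ * l ^ c₀ + 1 := Nat.ceil_lt_add_one (by positivity)
    have h2 : ((⌈l⌉₊ : ℕ) : ℝ) < l + 1 := Nat.ceil_lt_add_one (by linarith)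
    have h3 : l ^ c₀ ≤ l ^ (c₀ + 1) := pow_le_pow_right₀ hl1' (by omega)
    have h4 : l ≤ l ^ (c₀ + 1) := le_self_pow₀ hl1' (by omega)
    have h5 : 1 ≤ l ^ (c₀ + 1) := one_le_pow₀ hl1'
    have h6 : C₀ * l ^ c₀ ≤ C₀ * l ^ (c₀ + 1) := mul_le_mul_of_nonneg_left h3 hC₀.le
    have h7 : ((a₀ : ℝ) + 1002) ≤ (a₀ + 1002) * l ^ (c₀ + 1) :=
      le_mul_of_one_le_right (by positivity) h5
    have h8 : (T : ℝ) = a₀ + 1000 + (⌈C₀ * l ^ c₀⌉₊ : ℕ) + (⌈l⌉₊ : ℕ) := by
      rw [hT]; push_cast; ring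
    have h9 : M * l ^ (c₀ + 1) = (a₀ + 1002) * l ^ (c₀ + 1) + l ^ (c₀ + 1) +
        C₀ * l ^ (c₀ + 1) := by rw [hM]; ring
    rw [h8, h9]
    linarith
  have hT0 : (0 : ℝ) < T := by linarith
  have hlogT0 : 1 ≤ Real.log T := by
    rw [Real.le_log_iff_exp_le hT0]
    have := Real.exp_one_lt_d9
    linarith
  have hlogT : Real.log T ≤ (Real.log M / Real.log 2 + c₀ + 1) * Real.log (2 + Real.log a) := by
    have h1 := Real.log_le_log hT0 hTM
    rw [Real.log_mul (by positivity) (by positivity), Real.log_pow] at h1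
    have h2 : Real.log 2 ≤ Real.log (2 + Real.log a) :=
      Real.log_le_log (by norm_num) (by linarith)
    have h3 : Real.log l ≤ Real.log (2 + Real.log a) :=
      Real.log_le_log (by linarith) (by rw [hl]; linarith)
    have h4 : Real.log M ≤ Real.log M / Real.log 2 * Real.log (2 + Real.log a) := by
      calc Real.log M = Real.log M / Real.log 2 * Real.log 2 := by field_simp
        _ ≤ _ := mul_le_mul_of_nonneg_left h2 (by positivity)
    have h5 : ((c₀ + 1 : ℕ) : ℝ) * Real.log l ≤ (c₀ + 1 : ℕ) * Real.log (2 + Real.log a) :=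
      mul_le_mul_of_nonneg_left h3 (Nat.cast_nonneg _)
    push_cast at h1 h5
    have h6 : (Real.log M / Real.log 2 + c₀ + 1) * Real.log (2 + Real.log a) =
        Real.log M / Real.log 2 * Real.log (2 + Real.log a) +
          (c₀ + 1) * Real.log (2 + Real.log a) := by ring
    rw [h6]
    linarith
  have hL0 : 0 < Real.log (2 + Real.log a) := Real.log_pos (by linarith)
  have hgT : 24 * (b : ℝ) * Real.log T ≤ ((b : ℝ) - a) * Real.log (t / a) := by
    refine le_trans ?_ hg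
    have h1 : 24 * (b : ℝ) * Real.log T ≤ 24 * b *
        ((Real.log M / Real.log 2 + c₀ + 1) * Real.log (2 + Real.log a)) :=
      mul_le_mul_of_nonneg_left hlogT (by positivity)
    have h2 : 0 ≤ M ^ 6 * b * Real.log (2 + Real.log a) := by positivity
    have h3 : (24 * (Real.log M / Real.log 2 + c₀ + 1) + M ^ 6) * b *
        Real.log (2 + Real.log a) = 24 * b *
        ((Real.log M / Real.log 2 + c₀ + 1) * Real.log (2 + Real.log a)) +
        M ^ 6 * b * Real.log (2 + Real.log a) := by ring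
    rw [h3]
    linarith
  have hlog24 : 24 * Real.log T ≤ Real.log (t / a) := by
    have h1 : (b - a : ℝ) * (24 * Real.log T) ≤ (b - a) * Real.log (t / a) := by
      refine le_trans ?_ hgT
      have h2 : 0 ≤ (a : ℝ) * Real.log T := by positivity
      have h3 : (b - a : ℝ) * (24 * Real.log T) =
          24 * (b : ℝ) * Real.log T - 24 * (a * Real.log T) := by ring
      rw [h3]
      linarith
    exact le_of_mul_le_mul_left h1 (by linarith)
  have ht0 : 0 < t := by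
    rcases Nat.eq_zero_or_pos t with h | h
    · exfalso
      rw [h, Nat.cast_zero, zero_div, Real.log_zero] at hlog24
      linarith
    · exact h
  have ht0' : (0 : ℝ) < t := by exact_mod_cast ht0
  have hlo : T ^ 24 * a ≤ t := by
    have h1 : Real.log ((T : ℝ) ^ 24) ≤ Real.log (t / a) := by
      rw [Real.log_pow]; push_cast; exact hlog24
    have h2 := (Real.log_le_log_iff (by positivity) (by positivity)).1 h1
    rw [le_div_iff₀ ha'] at h2
    exact_mod_cast h2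
  have htot : lam 0 + (lam 1 + t) = a * b := by
    rw [← hsum, Fin.sum_univ_succ, Fin.sum_univ_succ]
    rfl
  have hbT' : (b : ℝ) ≤ T * a := hb.trans (mul_le_mul_of_nonneg_right hTC ha'.le)
  have hG : b ≤ T * (b - a) := by
    have h1 : Real.log (t / a) ≤ Real.log (T * a) := by
      refine Real.log_le_log (by positivity) ?_
      rw [div_le_iff₀ ha']
      have h2 : (t : ℝ) ≤ b * a := by exact_mod_cast (by rw [Nat.mul_comm]; omega : t ≤ b * a)
      exact h2.trans (mul_le_mul_of_nonneg_right hbT' ha'.le)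
    rw [Real.log_mul hT0.ne' ha'.ne'] at h1
    have h2 : Real.log T + Real.log a ≤ Real.log T * T := by
      have h3 : Real.log a ≤ Real.log T * Real.log a := le_mul_of_one_le_left hla hlogT0
      have h4 : Real.log T * l ≤ Real.log T * T := mul_le_mul_of_nonneg_left hTl (by linarith)
      have h5 : Real.log T * l = Real.log T + Real.log T * Real.log a := by rw [hl]; ring
      linarith
    have h3 : (b : ℝ) * Real.log T ≤ ((b - a : ℝ) * T) * Real.log T := by
      have h4 : ((b : ℝ) - a) * Real.log (t / a) ≤ (b - a) * (Real.log T * T) :=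
        mul_le_mul_of_nonneg_left (h1.trans h2) (by linarith)
      have h5 : 0 ≤ (b : ℝ) * Real.log T := by positivity
      have h6 : 24 * (b : ℝ) * Real.log T = 24 * (b * Real.log T) := by ring
      have h7 : ((b : ℝ) - a) * (Real.log T * T) = ((b - a : ℝ) * T) * Real.log T := by ring
      rw [h6] at hgT
      rw [h7] at h4
      linarith
    have h6 : (b : ℝ) ≤ (b - a) * T := le_of_mul_le_mul_right h3 (by linarith)
    have h7 : (b : ℝ) ≤ ((T * (b - a) : ℕ) : ℝ) := by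
      rw [Nat.cast_mul, Nat.cast_sub hab.le]
      linarith
    exact_mod_cast h7
  have hup' : T ^ 6 * t ≤ a ^ 2 := by
    have h1 : (T : ℝ) ^ 6 ≤ M ^ 6 * l ^ (6 * (c₀ + 1)) := by
      calc (T : ℝ) ^ 6 ≤ (M * l ^ (c₀ + 1)) ^ 6 := pow_le_pow_left₀ hT0.le hTM 6
        _ = M ^ 6 * l ^ (6 * (c₀ + 1)) := by rw [mul_pow, ← pow_mul, Nat.mul_comm]
    have h2 : (T : ℝ) ^ 6 * t ≤ (a : ℝ) ^ 2 := by
      refine le_trans ?_ hup
      refine mul_le_mul_of_nonneg_right (h1.trans ?_) ht0'.le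
      refine mul_le_mul_of_nonneg_right ?_ (by positivity)
      linarith
    exact_mod_cast h2
  have hl1'' : a ^ 2 ≤ T * lam 1 := by
    have h1 : (a : ℝ) ^ 2 ≤ T * lam 1 :=
      hl1.trans (mul_le_mul_of_nonneg_right hTC (Nat.cast_nonneg _))
    exact_mod_cast h1
  have hl2' : lam 2 ≤ t :=
    Finset.single_le_sum (f := fun i : Fin (k + 1) => lam i.succ.succ)
      (fun _ _ => Nat.zero_le _) (Finset.mem_univ 0)
  obtain ⟨e, n, m, X, h, R, K, q1, q2, q3, q4, q5, q6, q7, q8, q9, q10, q11, q12, q13, q14, q15⟩ :=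
    numT hT1 hab (by exact_mod_cast hbT') hG hl1'' hup' hlo hl2'
  have hat : a ≤ t := le_trans (Nat.le_mul_of_pos_left _ (by positivity)) hlo
  exact hcore a b k e n m X h R K lam h10 hsum (by omega) q2 q3 q4 q5 q6 q7 q8 q9 q10 q11 q12 q13
    (growT hT1 ha hab q4 hat q14 q15 hgT)

end Vale.Agent.P181.H382.H435
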